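import Crest.Agent.X262.Ends.Rees

/-!
# Row 262, LIVE (helper3): a valuative form of Zariski's main theorem
-/

set_option autoImplicit false

noncomputable section

namespace Crest.Agent.X262.Live3

open Polynomial

/-- `O` is a normal local ring dominated by `V`; if `t` is residually algebraic at every valuation
ring which dominates `O` and contains `t`, then `t` lies in `O` -/
theorem zmt {O K : Type*} [CommRing O] [Field K] [Algebra O K] (V : ValuationSubring K)
    (hle : ∀ x : O, algebraMap O K x ∈ V)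
    (hinv : ∀ x : O, V.valuation (algebraMap O K x) = 1 → IsUnit x)
    (hn : ∀ x : K, IsIntegral O x → x ∈ (algebraMap O K).range) {ι : Type*} [Finite ι]
    {t : ι → K} (ht : ∀ i, t i ∈ V)
    (h : ∀ W : ValuationSubring K, (∀ x : O, algebraMap O K x ∈ W) →
      (∀ x : O, V.valuation (algebraMap O K x) < 1 → W.valuation (algebraMap O K x) < 1) →
      (∀ i, t i ∈ W) → ∀ i, ∃ p : O[X], p.Monic ∧ W.valuation (aeval (t i) p) < 1) (i : ι) :
    t i ∈ (algebraMap O K).range := by
  let B := Algebra.adjoin O (Set.range t)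
  have hB : ∀ x ∈ B, x ∈ V := fun x hx => by
    induction hx using Algebra.adjoin_induction with
    | mem x hx => exact hx.choose_spec ▸ ht _
    | algebraMap c => exact hle c
    | add _ _ _ _ h h' => exact add_mem h h'
    | mul _ _ _ _ h h' => exact mul_mem h h'
  have : Algebra.FiniteType O B := Algebra.FiniteType.adjoin_of_finite (Set.finite_range t)
  let φ : B →+* V := B.val.toRingHom.codRestrict V fun x => hB x x.2
  let q : Ideal B := (IsLocalRing.maximalIdeal V).comap φ
  have hq : ∀ x : B, x ∈ q ↔ V.valuation x < 1 := fun x => V.valuation_lt_one_iff (φ x)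
  let I : Ideal B := (q.under O).map (algebraMap O B)
  let τ : ι → B := fun i => ⟨t i, Algebra.subset_adjoin ⟨i, rfl⟩⟩
  have h1 : ∀ i, IsIntegral O (Ideal.Quotient.mk I (τ i)) := fun i => by
    by_contra hc
    let S : Submonoid B :=
      { carrier := {x | ∃ p : O[X], p.Monic ∧ aeval (τ i) p = x}
        one_mem' := ⟨1, monic_one, map_one _⟩
        mul_mem' := by
          rintro _ _ ⟨p, hp, rfl⟩ ⟨p', hp', rfl⟩
          exact ⟨p * p', hp.mul hp', map_mul _ _ _⟩ }
    obtain ⟨P, _, h2, h3⟩ := I.exists_le_prime_disjoint S (Set.disjoint_left.2 (by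
      rintro _ h2 ⟨p, hp, rfl⟩
      refine hc ⟨p, hp, ?_⟩
      rw [← aeval_def, ← Ideal.Quotient.mkₐ_eq_mk O, aeval_algHom_apply]
      exact Ideal.Quotient.eq_zero_iff_mem.2 h2))
    obtain ⟨W, h4, h5⟩ := Ends.exists_centre B.val.toRingHom P fun x hx => by
      rw [show x = 0 from Subtype.ext hx]
      exact zero_mem _
    obtain ⟨p, hp, h6⟩ := h W (fun x => h4 (algebraMap O B x)) (fun x hx =>
      (h5 (algebraMap O B x)).2 (h2 (Ideal.mem_map_of_mem _ ((hq _).2 hx)))) (fun j => h4 (τ j)) i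
    refine Set.disjoint_left.1 h3 ((h5 (aeval (τ i) p)).1 ?_) ⟨p, hp, rfl⟩
    rwa [show B.val.toRingHom (aeval (τ i) p) = aeval (t i) p from
      (aeval_algHom_apply B.val (τ i) p).symm]
  have : Algebra.IsIntegral O (B ⧸ I) := ⟨fun x => by
    obtain ⟨⟨x, hx⟩, rfl⟩ := Ideal.Quotient.mk_surjective x
    induction hx using Algebra.adjoin_induction with
    | mem x hx =>
      obtain ⟨i, rfl⟩ := hx
      exact h1 i
    | algebraMap c => exact isIntegral_algebraMap (A := B ⧸ I) (x := c)
    | add x y hx hy h h' => exact h.add h'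
    | mul x y hx hy h h' => exact h.mul h'⟩
  have : Module.Finite O (B ⧸ I) := Algebra.IsIntegral.finite
  obtain ⟨r, h2, h3, h4⟩ := Algebra.zariskisMainProperty_iff.1
    (Algebra.ZariskisMainProperty.of_finiteType_of_weaklyQuasiFiniteAt (R := O) q)
  obtain ⟨m, h5⟩ := h4 (τ i)
  obtain ⟨a, ha⟩ := hn r (h3.map B.val)
  obtain ⟨c, hc⟩ := hn _ (h5.map B.val)
  obtain ⟨u, rfl⟩ := hinv a (ha ▸ le_antisymm (V.valuation_le_one_iff _ |>.2 (hB _ r.2))
    (not_lt.1 (mt (hq r).2 h2)))
  refine ⟨(u⁻¹ ^ m : Oˣ) * c, ?_⟩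
  rw [map_mul, hc, map_mul, map_pow]
  change _ * ((r : K) ^ m * t i) = _
  rw [← ha, ← map_pow, ← mul_assoc, ← map_mul, ← Units.val_pow_eq_pow_val, ← Units.val_mul,
    ← mul_pow, inv_mul_cancel, one_pow, Units.val_one, map_one, one_mul]

end Crest.Agent.X262.Live3
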